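import Vale.Agent.P181.H602.Coef

/-!
# The symmetric pairing of Dunkl operators

`Bp q S f g` is the constant term of `f(T) g`, where `T_i` is the Dunkl operator `T q S i` for
`i ∈ S` and `0` for `i ∉ S`. It is symmetric.
-/

namespace Vale.Agent.P181.H78

open MvPolynomial Vale.Agent.P181.H602

variable {ι : Type*} [DecidableEq ι] {K : Type*} [Field K]

/-- The Dunkl operator of an active variable, and `0` for the other variables. -/
noncomputable def Tz (q : K) (S : Finset ι) (l : ι) : Module.End K (MvPolynomial ι K) :=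
  if l ∈ S then T q S l else 0

theorem Tz_of_mem (q : K) {S : Finset ι} {l : ι} (h : l ∈ S) : Tz q S l = T q S l := by
  simp [Tz, h]

theorem Tz_of_notMem (q : K) {S : Finset ι} {l : ι} (h : l ∉ S) : Tz q S l = 0 := by
  simp [Tz, h]

theorem Tz_comm (q : K) (S : Finset ι) (i j : ι) : Tz q S i * Tz q S j = Tz q S j * Tz q S i := by
  by_cases hi : i ∈ S
  · by_cases hj : j ∈ S
    · rw [Tz_of_mem q hi, Tz_of_mem q hj]
      apply LinearMap.ext
      intro f
      exact T_comm q S hi hj f
    · rw [Tz_of_notMem q hj]; simp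
  · rw [Tz_of_notMem q hi]; simp

theorem range_comm (q : K) (S : Finset ι) :
    ∀ a ∈ Set.range (Tz q S), ∀ b ∈ Set.range (Tz q S), a * b = b * a := by
  rintro _ ⟨i, rfl⟩ _ ⟨j, rfl⟩
  exact Tz_comm q S i j

/-- The commutative algebra of Dunkl operators. -/
noncomputable abbrev DA (q : K) (S : Finset ι) : Subalgebra K (Module.End K (MvPolynomial ι K)) :=
  Algebra.adjoin K (Set.range (Tz q S))

open scoped IsMulCommutative in
/-- `f(T)`. -/
noncomputable def op (q : K) (S : Finset ι) :
    MvPolynomial ι K →ₐ[K] Module.End K (MvPolynomial ι K) :=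
  haveI : IsMulCommutative (DA q S) := Algebra.isMulCommutative_adjoin K (range_comm q S)
  (DA q S).val.comp (aeval (R := K) (S₁ := DA q S)
    (fun l => (⟨Tz q S l, Algebra.subset_adjoin ⟨l, rfl⟩⟩ : DA q S)))

theorem op_X (q : K) (S : Finset ι) (l : ι) : op q S (X l) = Tz q S l := by
  unfold op
  simp

theorem op_C (q : K) (S : Finset ι) (a : K) (g : MvPolynomial ι K) :
    op q S (C a) g = C a * g := by
  have : (C a : MvPolynomial ι K) = algebraMap K _ a := rfl
  rw [this, AlgHom.commutes, Module.algebraMap_end_apply, smul_eq_C_mul]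
  rfl

theorem op_mul (q : K) (S : Finset ι) (f g h : MvPolynomial ι K) :
    op q S (f * g) h = op q S f (op q S g h) := by
  rw [map_mul]; rfl

theorem op_comm (q : K) (S : Finset ι) (f g h : MvPolynomial ι K) :
    op q S f (op q S g h) = op q S g (op q S f h) := by
  rw [← op_mul, mul_comm, op_mul]

theorem op_X_mul_of_mem (q : K) {S : Finset ι} {i : ι} (hi : i ∈ S) (f g : MvPolynomial ι K) :
    op q S (X i * f) g = op q S f (T q S i g) := by
  rw [mul_comm, op_mul, op_X, Tz_of_mem q hi]

theorem op_X_mul_of_mem' (q : K) {S : Finset ι} {i : ι} (hi : i ∈ S) (f g : MvPolynomial ι K) :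
    op q S (X i * f) g = T q S i (op q S f g) := by
  rw [op_mul, op_X, Tz_of_mem q hi]

theorem op_X_mul_of_notMem (q : K) {S : Finset ι} {i : ι} (hi : i ∉ S) (f g : MvPolynomial ι K) :
    op q S (X i * f) g = 0 := by
  rw [op_mul, op_X, Tz_of_notMem q hi]; rfl

/-- `T_i` commutes with multiplication by an inactive variable. -/
theorem op_apply_X_mul (q : K) (S : Finset ι) {i : ι} (hi : i ∉ S) (f g : MvPolynomial ι K) :
    op q S f (X i * g) = X i * op q S f g := by
  induction f using ind_X_mul with
  | hC a => rw [op_C, op_C]; ring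
  | hadd p r hp hr => rw [map_add, LinearMap.add_apply, LinearMap.add_apply, hp, hr]; ring
  | hX p l hp =>
    by_cases hl : l ∈ S
    · rw [op_X_mul_of_mem' q hl, op_X_mul_of_mem' q hl, hp,
        T_X_mul_of_notMem q S hi (fun h => hi (h ▸ hl))]
    · rw [op_X_mul_of_notMem q hl, op_X_mul_of_notMem q hl, mul_zero]

/-- The pairing: constant term of `f(T) g`. -/
noncomputable def Bp (q : K) (S : Finset ι) :
    MvPolynomial ι K →ₗ[K] MvPolynomial ι K →ₗ[K] K :=
  LinearMap.mk₂ K (fun f g => constantCoeff (op q S f g))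
    (fun f f' g => by rw [map_add, LinearMap.add_apply, map_add])
    (fun c f g => by
      rw [map_smul, LinearMap.smul_apply, smul_eq_C_mul, map_mul, constantCoeff_C, smul_eq_mul])
    (fun f g g' => by rw [map_add, map_add])
    (fun c f g => by
      rw [map_smul, smul_eq_C_mul, map_mul, constantCoeff_C, smul_eq_mul])

theorem Bp_apply (q : K) (S : Finset ι) (f g : MvPolynomial ι K) :
    Bp q S f g = constantCoeff (op q S f g) := rfl

/-- (b1) -/
theorem Bp_X_mul (q : K) {S : Finset ι} {i : ι} (hi : i ∈ S) (f g : MvPolynomial ι K) :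
    Bp q S (X i * f) g = Bp q S f (T q S i g) := by
  rw [Bp_apply, Bp_apply, op_X_mul_of_mem q hi]

/-- (b1') -/
theorem Bp_X_mul_of_notMem (q : K) {S : Finset ι} {i : ι} (hi : i ∉ S) (f g : MvPolynomial ι K) :
    Bp q S (X i * f) g = 0 := by
  rw [Bp_apply, op_X_mul_of_notMem q hi, map_zero]

/-- (b2) -/
theorem Bp_C (q : K) (S : Finset ι) (a : K) (g : MvPolynomial ι K) :
    Bp q S (C a) g = a * constantCoeff g := by
  rw [Bp_apply, op_C, map_mul, constantCoeff_C]

theorem Bp_one (q : K) (S : Finset ι) (g : MvPolynomial ι K) :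
    Bp q S 1 g = constantCoeff g := by
  have := Bp_C q S 1 g
  rwa [C_1, one_mul] at this

theorem Bp_C_mul_left (q : K) (S : Finset ι) (a : K) (f g : MvPolynomial ι K) :
    Bp q S (C a * f) g = a * Bp q S f g := by
  rw [← smul_eq_C_mul, map_smul, LinearMap.smul_apply, smul_eq_mul]

theorem Bp_C_mul_right (q : K) (S : Finset ι) (a : K) (f g : MvPolynomial ι K) :
    Bp q S f (C a * g) = a * Bp q S f g := by
  rw [← smul_eq_C_mul, map_smul, smul_eq_mul]

theorem Bp_X_mul_right_of_notMem (q : K) {S : Finset ι} {i : ι} (hi : i ∉ S)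
    (f g : MvPolynomial ι K) : Bp q S f (X i * g) = 0 := by
  rw [Bp_apply, op_apply_X_mul q S hi, map_mul, constantCoeff_X, zero_mul]

omit [DecidableEq ι] in
theorem constantCoeff_sw [DecidableEq ι] (a b : ι) (f : MvPolynomial ι K) :
    constantCoeff (sw a b f) = constantCoeff f := by
  simp [sw]

/-- Invariance of the pairing. -/
theorem op_sw (q : K) {S : Finset ι} {a b : ι} (ha : a ∈ S) (hb : b ∈ S)
    (f g : MvPolynomial ι K) :
    op q S (sw a b f) (sw a b g) = sw a b (op q S f g) := by
  have hS : ∀ l, Equiv.swap a b l ∈ S ↔ l ∈ S := by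
    intro l
    rcases eq_or_ne l a with h | h
    · subst h; simp [ha, hb]
    · rcases eq_or_ne l b with h' | h'
      · subst h'; simp [ha, hb]
      · rw [Equiv.swap_apply_of_ne_of_ne h h']
  induction f using ind_X_mul with
  | hC c =>
    have : sw a b (C c : MvPolynomial ι K) = C c := by simp [sw]
    rw [this, op_C, op_C, map_mul, this]
  | hadd p r hp hr =>
    rw [map_add, map_add, LinearMap.add_apply, hp, hr, map_add, LinearMap.add_apply, map_add]
  | hX p l hp =>
    rw [map_mul, sw_X]
    by_cases hl : l ∈ S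
    · rw [op_X_mul_of_mem' q ((hS l).2 hl), op_X_mul_of_mem' q hl, hp, sw_T_of_mem q S ha hb]
    · rw [op_X_mul_of_notMem q (fun h => hl ((hS l).1 h)), op_X_mul_of_notMem q hl, map_zero]

theorem Bp_sw (q : K) {S : Finset ι} {a b : ι} (ha : a ∈ S) (hb : b ∈ S)
    (f g : MvPolynomial ι K) :
    Bp q S (sw a b f) (sw a b g) = Bp q S f g := by
  rw [Bp_apply, Bp_apply, op_sw q ha hb, constantCoeff_sw]

theorem Bp_sw_left (q : K) {S : Finset ι} {a b : ι} (ha : a ∈ S) (hb : b ∈ S)
    (f g : MvPolynomial ι K) :
    Bp q S (sw a b f) g = Bp q S f (sw a b g) := by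
  have := Bp_sw q ha hb f (sw a b g)
  rwa [sw_sw] at this

/-- The adjoint of multiplication by `x_i` on the right. -/
theorem Bp_X_mul_right (q : K) {S : Finset ι} {i : ι} (hi : i ∈ S) (g f : MvPolynomial ι K) :
    Bp q S g (X i * f) = Bp q S (T q S i g) f := by
  induction g using ind_X_mul generalizing f with
  | hC c =>
    rw [Bp_C, T_C, map_mul, constantCoeff_X, zero_mul, mul_zero, map_zero, LinearMap.zero_apply]
  | hadd p r hp hr =>
    rw [map_add, LinearMap.add_apply, hp, hr, map_add, map_add, LinearMap.add_apply]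
  | hX p j hp =>
    by_cases hj : j ∈ S
    · rw [Bp_X_mul q hj]
      rcases eq_or_ne i j with hij | hij
      · subst hij
        rw [T_X_self_mul, T_X_self_mul, map_sub, map_add, hp, map_sub, map_add,
          LinearMap.sub_apply, LinearMap.add_apply, Bp_X_mul q hi, Bp_C_mul_left, Bp_C_mul_right,
          map_sum, map_sum, LinearMap.sum_apply]
        congr 2
        refine Finset.sum_congr rfl fun l hl => ?_
        rw [Bp_sw_left q hi (Finset.mem_of_mem_erase hl)]
      · rw [T_X_mul_of_mem q S hi hij.symm, T_X_mul_of_mem q S hj hij, map_add, map_add,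
          LinearMap.add_apply, hp, Bp_X_mul q hj, Bp_C_mul_left, Bp_C_mul_right,
          Bp_sw_left q hi hj, sw_comm j i]
    · rw [Bp_X_mul_of_notMem q hj, T_X_mul_of_notMem q S hj (fun h => hj (h ▸ hi)),
        Bp_X_mul_of_notMem q hj]

/-- (b3) The pairing is symmetric. -/
theorem Bp_comm (q : K) (S : Finset ι) (f g : MvPolynomial ι K) :
    Bp q S f g = Bp q S g f := by
  induction f using ind_X_mul generalizing g with
  | hC c =>
    rw [Bp_C]
    have h1 : (C c : MvPolynomial ι K) = C c * 1 := by rw [mul_one]
    rw [h1, Bp_C_mul_right]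
    congr 1
    clear h1
    induction g using ind_X_mul with
    | hC a => rw [Bp_C]; simp
    | hadd p r hp hr => rw [map_add, map_add, LinearMap.add_apply, hp, hr]
    | hX p l hp =>
      by_cases hl : l ∈ S
      · rw [Bp_X_mul q hl, T_one, map_zero, map_mul, constantCoeff_X, zero_mul]
      · rw [Bp_X_mul_of_notMem q hl, map_mul, constantCoeff_X, zero_mul]
  | hadd p r hp hr => rw [map_add, LinearMap.add_apply, hp, hr, map_add]
  | hX p l hp =>
    by_cases hl : l ∈ S
    · rw [Bp_X_mul q hl, hp, ← Bp_X_mul_right q hl]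
    · rw [Bp_X_mul_of_notMem q hl, Bp_X_mul_right_of_notMem q hl]

/-- If `f` has no constant term and all `T_i g = 0`, then `f` and `g` are orthogonal. -/
theorem Bp_eq_zero_of_T (q : K) (S : Finset ι) {f g : MvPolynomial ι K}
    (hf : constantCoeff f = 0) (hg : ∀ i ∈ S, T q S i g = 0) : Bp q S f g = 0 := by
  have key : ∀ f : MvPolynomial ι K, Bp q S f g = constantCoeff f * constantCoeff g := by
    intro f
    induction f using ind_X_mul with
    | hC c => rw [Bp_C, constantCoeff_C]
    | hadd p r hp hr => rw [map_add, LinearMap.add_apply, hp, hr, map_add]; ring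
    | hX p l hp =>
      have h0 : constantCoeff (X l * p : MvPolynomial ι K) = 0 := by
        rw [map_mul, constantCoeff_X, zero_mul]
      rw [h0, zero_mul]
      by_cases hl : l ∈ S
      · rw [Bp_X_mul q hl, hg l hl, map_zero]
      · rw [Bp_X_mul_of_notMem q hl]
  rw [key, hf, zero_mul]

theorem T_iterate_comm (q : K) (S : Finset ι) {k j : ι} (hk : k ∈ S) (hj : j ∈ S) (m : ℕ)
    (p : MvPolynomial ι K) :
    T q S k ((T q S j)^[m] p) = (T q S j)^[m] (T q S k p) := by
  induction m generalizing p with
  | zero => rfl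
  | succ m ih => rw [Function.iterate_succ_apply, Function.iterate_succ_apply, ih, T_comm q S hk hj]

/-- If `T_k p = 0` for all active `k ≠ j`, then the operator `f(T)` only sees the pure powers of
`x_j`. -/
theorem Bp_eq_of_pure (q : K) (S : Finset ι) {j : ι} (hj : j ∈ S) {m : ℕ} {c : K}
    (p : MvPolynomial ι K) (hp : ∀ k ∈ S, k ≠ j → T q S k p = 0)
    (hc : ∀ r, constantCoeff ((T q S j)^[r] p) = if r = m then c else 0)
    (f : MvPolynomial ι K) :
    Bp q S f p = coeff (Finsupp.single j m) f * c := by
  induction f using ind_X_mul generalizing m p c with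
  | hC a =>
    rw [Bp_C, coeff_C]
    have h0 := hc 0
    rw [Function.iterate_zero_apply] at h0
    rw [h0]
    by_cases hm : m = 0
    · subst hm; simp
    · have h1 : ¬ (0 = Finsupp.single j m) := by
        intro h
        have := DFunLike.congr_fun h j
        simp at this
        exact hm this.symm
      rw [if_neg (Ne.symm hm), if_neg h1]; simp
  | hadd p' r hp' hr =>
    rw [map_add, LinearMap.add_apply, coeff_add, hp' p hp hc, hr p hp hc]; ring
  | hX f' l hf' =>
    by_cases hl : l ∈ S
    · rw [Bp_X_mul q hl]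
      rcases eq_or_ne l j with hlj | hlj
      · subst hlj
        rcases Nat.eq_zero_or_pos m with hm | hm
        · subst hm
          have h1 : coeff (Finsupp.single l 0) (X l * f') = 0 := by
            rw [Finsupp.single_zero]
            show constantCoeff (X l * f') = 0
            rw [map_mul, constantCoeff_X, zero_mul]
          rw [h1, zero_mul]
          have h2 : ∀ r, constantCoeff ((T q S l)^[r] (T q S l p))
              = if r = 0 then (0 : K) else 0 := by
            intro r
            have := hc (r + 1)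
            rw [Function.iterate_succ_apply, if_neg (Nat.succ_ne_zero r)] at this
            rw [this]; simp
          have h3 := hf' (T q S l p) (fun k hk hkl => by
            rw [T_comm q S hk hl, hp k hk hkl, map_zero]) h2
          rw [h3, mul_zero]
        · obtain ⟨m, rfl⟩ : ∃ m', m = m' + 1 := ⟨m - 1, by omega⟩
          have h2 : ∀ r, constantCoeff ((T q S l)^[r] (T q S l p))
              = if r = m then c else 0 := by
            intro r
            have := hc (r + 1)
            rw [Function.iterate_succ_apply] at this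
            rw [this]
            simp
          rw [hf' (T q S l p) (fun k hk hkl => by
            rw [T_comm q S hk hl, hp k hk hkl, map_zero]) h2]
          congr 1
          rw [Finsupp.single_add, add_comm, coeff_X_mul']
          simp
      · rw [hp l hl hlj, map_zero, coeff_X_mul', if_neg, zero_mul]
        rw [Finsupp.mem_support_iff, Finsupp.single_apply, if_neg (Ne.symm hlj)]
        simp
    · rw [Bp_X_mul_of_notMem q hl, coeff_X_mul', if_neg, zero_mul]
      have hlj : j ≠ l := fun h => hl (h ▸ hj)
      rw [Finsupp.mem_support_iff, Finsupp.single_apply, if_neg hlj]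
      simp

end Vale.Agent.P181.H78
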