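import Vale.Agent.P181.H78.Pair

/-!
# The families `hh` and `vv`

`hh q S j m` is the coefficient of `t^m` in
`(1 - t x_j)^(q-1) ∏_{l ∈ S - j} (1 - t x_l)^q`, and `vv q S j m` is
`Σ_{r < m} hh q S j r * P_{m-r} / (m-r)` with the power sums `P_k` in the variables `S`.
-/

namespace Vale.Agent.P181.H78

open MvPolynomial Vale.Agent.P181.H602

variable {ι : Type*} [DecidableEq ι] {K : Type*} [Field K]

/-- The factor `1 - t x_l`. -/
noncomputable def lfac (K : Type*) [Field K] {ι : Type*} (l : ι) :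
    Polynomial (MvPolynomial ι K) :=
  1 - Polynomial.C (X l) * Polynomial.X

/-- `∏_{l ∈ S} (1 - t x_l)^q`. -/
noncomputable def PP (K : Type*) [Field K] (q : ℕ) (S : Finset ι) :
    Polynomial (MvPolynomial ι K) :=
  ∏ l ∈ S, lfac K l ^ q

/-- `(1 - t x_j)^(q-1) ∏_{l ∈ S - j} (1 - t x_l)^q`. -/
noncomputable def HH (K : Type*) [Field K] (q : ℕ) (S : Finset ι) (j : ι) :
    Polynomial (MvPolynomial ι K) :=
  lfac K j ^ (q - 1) * PP K q (S.erase j)

/-- Coefficients of `PP`. -/
noncomputable def cc (K : Type*) [Field K] (q : ℕ) (S : Finset ι) (m : ℕ) : MvPolynomial ι K :=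
  (PP K q S).coeff m

/-- Coefficients of `HH`. -/
noncomputable def hh (K : Type*) [Field K] (q : ℕ) (S : Finset ι) (j : ι) (m : ℕ) :
    MvPolynomial ι K :=
  (HH K q S j).coeff m

theorem lfac_mul_HH {q : ℕ} (hq : 1 ≤ q) {S : Finset ι} {j : ι} (hj : j ∈ S) :
    lfac K j * HH K q S j = PP K q S := by
  unfold HH PP
  rw [← mul_assoc, ← pow_succ', Nat.sub_add_cancel hq]
  exact Finset.mul_prod_erase S (fun l => lfac K l ^ q) hj

omit [DecidableEq ι] in
theorem coeff_zero_lfac_mul (l : ι) (p : Polynomial (MvPolynomial ι K)) :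
    (lfac K l * p).coeff 0 = p.coeff 0 := by
  unfold lfac
  rw [sub_mul, one_mul, Polynomial.coeff_sub, mul_assoc, Polynomial.coeff_C_mul,
    Polynomial.coeff_X_mul_zero, mul_zero, sub_zero]

omit [DecidableEq ι] in
theorem coeff_succ_lfac_mul (l : ι) (p : Polynomial (MvPolynomial ι K)) (m : ℕ) :
    (lfac K l * p).coeff (m + 1) = p.coeff (m + 1) - X l * p.coeff m := by
  unfold lfac
  rw [sub_mul, one_mul, Polynomial.coeff_sub, mul_assoc, Polynomial.coeff_C_mul,
    Polynomial.coeff_X_mul]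

theorem hh_succ {q : ℕ} (hq : 1 ≤ q) {S : Finset ι} {j : ι} (hj : j ∈ S) (m : ℕ) :
    hh K q S j (m + 1) = cc K q S (m + 1) + X j * hh K q S j m := by
  have := congrArg (fun p => Polynomial.coeff p (m + 1)) (lfac_mul_HH (K := K) hq hj)
  simp only [coeff_succ_lfac_mul] at this
  unfold hh cc
  rw [← this]; ring

omit [DecidableEq ι] in
theorem coeff_zero_lfac_pow (l : ι) (k : ℕ) : (lfac K l ^ k).coeff 0 = 1 := by
  rw [Polynomial.coeff_zero_eq_eval_zero, Polynomial.eval_pow, lfac]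
  simp

omit [DecidableEq ι] in
theorem cc_zero (q : ℕ) (S : Finset ι) : cc K q S 0 = 1 := by
  unfold cc PP
  rw [Polynomial.coeff_zero_eq_eval_zero, Polynomial.eval_prod]
  refine Finset.prod_eq_one fun l _ => ?_
  rw [← Polynomial.coeff_zero_eq_eval_zero, coeff_zero_lfac_pow]

theorem hh_zero (q : ℕ) (S : Finset ι) (j : ι) : hh K q S j 0 = 1 := by
  unfold hh HH
  rw [Polynomial.mul_coeff_zero, coeff_zero_lfac_pow, one_mul]
  exact cc_zero q (S.erase j)

omit [DecidableEq ι] in
theorem natDegree_lfac (l : ι) : (lfac K l).natDegree ≤ 1 := by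
  unfold lfac
  refine (Polynomial.natDegree_sub_le _ _).trans ?_
  rw [Polynomial.natDegree_one]
  refine max_le (by omega) ?_
  exact Polynomial.natDegree_C_mul_le _ _ |>.trans Polynomial.natDegree_X_le

omit [DecidableEq ι] in
theorem natDegree_PP (q : ℕ) (S : Finset ι) : (PP K q S).natDegree ≤ q * S.card := by
  unfold PP
  refine (Polynomial.natDegree_prod_le _ _).trans ?_
  calc ∑ l ∈ S, (lfac K l ^ q).natDegree ≤ ∑ _l ∈ S, q := by
        refine Finset.sum_le_sum fun l _ => ?_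
        refine Polynomial.natDegree_pow_le.trans ?_
        have := natDegree_lfac (K := K) l
        nlinarith
    _ = q * S.card := by rw [Finset.sum_const, smul_eq_mul, mul_comm]

theorem natDegree_HH {q : ℕ} (hq : 1 ≤ q) {S : Finset ι} {j : ι} (hj : j ∈ S) :
    (HH K q S j).natDegree < q * S.card := by
  unfold HH
  have h1 := natDegree_PP (K := K) q (S.erase j)
  have h2 : (lfac K j ^ (q - 1)).natDegree ≤ q - 1 := by
    refine Polynomial.natDegree_pow_le.trans ?_
    have := natDegree_lfac (K := K) j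
    nlinarith
  have h3 := Polynomial.natDegree_mul_le (p := lfac K j ^ (q - 1)) (q := PP K q (S.erase j))
  rw [Finset.card_erase_of_mem hj] at h1
  have h4 : 1 ≤ S.card := Finset.card_pos.2 ⟨j, hj⟩
  have h5 : q * (S.card - 1) + q = q * S.card := by
    conv_rhs => rw [← Nat.sub_add_cancel h4]
    ring
  omega

theorem hh_eq_zero {q : ℕ} (hq : 1 ≤ q) {S : Finset ι} {j : ι} (hj : j ∈ S) {m : ℕ}
    (hm : q * S.card ≤ m) : hh K q S j m = 0 :=
  Polynomial.coeff_eq_zero_of_natDegree_lt (lt_of_lt_of_le (natDegree_HH hq hj) hm)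

/-! ### Symmetry -/

omit [DecidableEq ι] in
theorem map_lfac (σ : Equiv.Perm ι) (l : ι) :
    Polynomial.map (rename σ : MvPolynomial ι K →ₐ[K] MvPolynomial ι K).toRingHom (lfac K l)
      = lfac K (σ l) := by
  unfold lfac
  simp

omit [DecidableEq ι] in
theorem map_PP (σ : Equiv.Perm ι) (q : ℕ) (S : Finset ι) :
    Polynomial.map (rename σ : MvPolynomial ι K →ₐ[K] MvPolynomial ι K).toRingHom (PP K q S)
      = PP K q (S.map σ.toEmbedding) := by
  unfold PP
  rw [Polynomial.map_prod, Finset.prod_map]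
  refine Finset.prod_congr rfl fun l _ => ?_
  rw [Polynomial.map_pow, map_lfac]
  rfl

theorem map_HH (σ : Equiv.Perm ι) (q : ℕ) (S : Finset ι) (j : ι) :
    Polynomial.map (rename σ : MvPolynomial ι K →ₐ[K] MvPolynomial ι K).toRingHom (HH K q S j)
      = HH K q (S.map σ.toEmbedding) (σ j) := by
  unfold HH
  rw [Polynomial.map_mul, Polynomial.map_pow, map_lfac, map_PP]
  congr 2
  rw [Finset.map_erase]
  rfl

theorem map_swap_eq {S : Finset ι} {a b : ι} (ha : a ∈ S) (hb : b ∈ S) :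
    S.map (Equiv.swap a b).toEmbedding = S := by
  ext l
  rw [Finset.mem_map_equiv]
  rw [Equiv.symm_swap]
  rcases eq_or_ne l a with h | h
  · subst h; simp [ha, hb]
  · rcases eq_or_ne l b with h' | h'
    · subst h'; simp [ha, hb]
    · rw [Equiv.swap_apply_of_ne_of_ne h h']

theorem sw_hh (q : ℕ) {S : Finset ι} {a b : ι} (ha : a ∈ S) (hb : b ∈ S) (j : ι) (m : ℕ) :
    sw a b (hh K q S j m) = hh K q S (Equiv.swap a b j) m := by
  have := congrArg (fun p => Polynomial.coeff p m) (map_HH (K := K) (Equiv.swap a b) q S j)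
  simp only [Polynomial.coeff_map, map_swap_eq ha hb] at this
  exact this

theorem sw_cc (q : ℕ) {S : Finset ι} {a b : ι} (ha : a ∈ S) (hb : b ∈ S) (m : ℕ) :
    sw a b (cc K q S m) = cc K q S m := by
  have := congrArg (fun p => Polynomial.coeff p m) (map_PP (K := K) (Equiv.swap a b) q S)
  simp only [Polynomial.coeff_map, map_swap_eq ha hb] at this
  exact this

/-! ### Derivatives -/

/-- Coefficientwise derivative. -/
noncomputable def Dc (K : Type*) [Field K] {ι : Type*} [DecidableEq ι] (i : ι) :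
    Derivation K (Polynomial (MvPolynomial ι K)) (Polynomial (MvPolynomial ι K)) :=
  PolynomialModule.equivPolynomialSelf.compDer (pderiv (R := K) i).mapCoeffs

theorem coeff_Dc (i : ι) (p : Polynomial (MvPolynomial ι K)) (m : ℕ) :
    (Dc K i p).coeff m = pderiv i (p.coeff m) := rfl

theorem Dc_lfac_self (i : ι) : Dc K i (lfac K i) = - Polynomial.X := by
  ext1 m
  rw [coeff_Dc]
  unfold lfac
  rw [Polynomial.coeff_sub, Polynomial.coeff_C_mul, Polynomial.coeff_one, Polynomial.coeff_neg,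
    map_sub, Derivation.leibniz, pderiv_X_self]
  rw [Polynomial.coeff_X]
  split_ifs <;> simp

theorem Dc_lfac_of_ne {i l : ι} (h : l ≠ i) : Dc K i (lfac K l) = 0 := by
  ext1 m
  rw [coeff_Dc]
  unfold lfac
  rw [Polynomial.coeff_sub, Polynomial.coeff_C_mul, Polynomial.coeff_one, Polynomial.coeff_zero,
    map_sub, Derivation.leibniz, pderiv_X_of_ne h]
  rw [Polynomial.coeff_X]
  split_ifs <;> simp

theorem Dc_PP_of_notMem (q : ℕ) (S : Finset ι) {i : ι} (hi : i ∉ S) :
    Dc K i (PP K q S) = 0 := by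
  unfold PP
  induction S using Finset.induction_on with
  | empty => simp
  | insert a S ha ih =>
    rw [Finset.prod_insert ha, Derivation.leibniz, Derivation.leibniz_pow]
    rw [Finset.mem_insert, not_or] at hi
    rw [ih hi.2, Dc_lfac_of_ne (Ne.symm hi.1)]
    simp

theorem Dc_PP (q : ℕ) {S : Finset ι} {i : ι} (hi : i ∈ S) :
    Dc K i (PP K q S)
      = - ((q : Polynomial (MvPolynomial ι K)) * (Polynomial.X * HH K q S i)) := by
  have h1 : PP K q S = lfac K i ^ q * PP K q (S.erase i) :=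
    (Finset.mul_prod_erase S (fun l => lfac K l ^ q) hi).symm
  rw [h1, Derivation.leibniz, Dc_PP_of_notMem q (S.erase i) (Finset.notMem_erase i S),
    Derivation.leibniz_pow, Dc_lfac_self]
  unfold HH
  simp only [smul_eq_mul, nsmul_eq_mul]
  ring

omit [DecidableEq ι] in
theorem pderiv_cc_zero (q : ℕ) (S : Finset ι) (i : ι) : pderiv i (cc K q S 0) = 0 := by
  rw [cc_zero]; simp

theorem pderiv_cc_succ (q : ℕ) {S : Finset ι} {i : ι} (hi : i ∈ S) (m : ℕ) :
    pderiv i (cc K q S (m + 1)) = - (q : MvPolynomial ι K) * hh K q S i m := by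
  have h1 := congrArg (fun p => Polynomial.coeff p (m + 1)) (Dc_PP (K := K) q hi)
  simp only [coeff_Dc] at h1
  rw [Polynomial.coeff_neg, ← Polynomial.C_eq_natCast, Polynomial.coeff_C_mul,
    Polynomial.coeff_X_mul] at h1
  unfold cc hh
  rw [h1]; ring

/-! ### The Euler identity -/

omit [DecidableEq ι] in
theorem derivative_lfac (l : ι) :
    Polynomial.derivative (lfac K l) = - Polynomial.C (X l : MvPolynomial ι K) := by
  unfold lfac
  simp

/-- `t d/dt PP = q |S| PP - q Σ_l HH_l`. -/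
theorem euler_PP {q : ℕ} (hq : 1 ≤ q) (S : Finset ι) :
    Polynomial.X * Polynomial.derivative (PP K q S)
      = (q : Polynomial (MvPolynomial ι K))
        * ((S.card : Polynomial (MvPolynomial ι K)) * PP K q S - ∑ l ∈ S, HH K q S l) := by
  have h1 : Polynomial.derivative (PP K q S)
      = ∑ l ∈ S, (q : Polynomial (MvPolynomial ι K))
        * (- Polynomial.C (X l : MvPolynomial ι K)) * HH K q S l := by
    unfold PP
    rw [Polynomial.derivative_prod_finset]
    refine Finset.sum_congr rfl fun l hl => ?_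
    rw [Polynomial.derivative_pow, derivative_lfac]
    unfold HH PP
    rw [Polynomial.C_eq_natCast]
    ring
  have h2 : ∀ l ∈ S, Polynomial.X * ((q : Polynomial (MvPolynomial ι K))
      * (- Polynomial.C (X l : MvPolynomial ι K)) * HH K q S l)
      = (q : Polynomial (MvPolynomial ι K)) * (PP K q S - HH K q S l) := by
    intro l hl
    rw [← lfac_mul_HH hq hl]
    unfold lfac
    ring
  rw [h1, Finset.mul_sum, Finset.sum_congr rfl h2, ← Finset.mul_sum, Finset.sum_sub_distrib,
    Finset.sum_const, nsmul_eq_mul]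

theorem euler_cc {q : ℕ} (hq : 1 ≤ q) (S : Finset ι) (m : ℕ) :
    (m : MvPolynomial ι K) * cc K q S m
      = q * (S.card * cc K q S m - ∑ l ∈ S, hh K q S l m) := by
  have h1 := congrArg (fun p => Polynomial.coeff p m) (euler_PP (K := K) hq S)
  beta_reduce at h1
  rw [← Polynomial.C_eq_natCast, Polynomial.coeff_C_mul, Polynomial.coeff_sub,
    ← Polynomial.C_eq_natCast, Polynomial.coeff_C_mul, Polynomial.finsetSum_coeff] at h1
  unfold cc hh
  rw [← h1]
  cases m with
  | zero => simp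
  | succ m =>
    rw [Polynomial.coeff_X_mul, Polynomial.coeff_derivative]
    push_cast
    ring

/-! ### Dunkl operators on `hh` -/

theorem T_cc_zero (q : ℕ) (S : Finset ι) (i : ι) : T (q : K) S i (cc K q S 0) = 0 := by
  rw [cc_zero]; simp

theorem T_of_symm (q : K) {S : Finset ι} {i : ι} {f : MvPolynomial ι K}
    (hf : ∀ l ∈ S, sw i l f = f) : T q S i f = pderiv i f := by
  rw [T_apply]
  have : ∑ j ∈ S.erase i, dd i j f = 0 :=
    Finset.sum_eq_zero fun l hl => dd_eq_zero (hf l (Finset.mem_of_mem_erase hl))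
  rw [this, mul_zero, sub_zero]

theorem T_symm_mul (q : K) {S : Finset ι} {i : ι} {f : MvPolynomial ι K}
    (hf : ∀ l ∈ S, sw i l f = f) (g : MvPolynomial ι K) :
    T q S i (f * g) = pderiv i f * g + f * T q S i g := by
  rw [T_apply, T_apply, Derivation.leibniz]
  have : ∑ j ∈ S.erase i, dd i j (f * g) = f * ∑ j ∈ S.erase i, dd i j g := by
    rw [Finset.mul_sum]
    exact Finset.sum_congr rfl fun l hl => dd_mul_left (hf l (Finset.mem_of_mem_erase hl)) g
  rw [this]
  simp only [smul_eq_mul]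
  ring

theorem T_cc_succ (q : ℕ) {S : Finset ι} {i : ι} (hi : i ∈ S) (m : ℕ) :
    T (q : K) S i (cc K q S (m + 1)) = - (q : MvPolynomial ι K) * hh K q S i m := by
  rw [T_of_symm (q : K) (fun l hl => sw_cc q hi hl (m + 1)), pderiv_cc_succ q hi]

/-- `T_k h_m^j = 0` for `k ≠ j`. -/
theorem T_hh_of_ne {q : ℕ} (hq : 1 ≤ q) {S : Finset ι} {k j : ι} (hk : k ∈ S) (hj : j ∈ S)
    (hkj : k ≠ j) (m : ℕ) : T (q : K) S k (hh K q S j m) = 0 := by
  induction m with
  | zero => rw [hh_zero, T_one]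
  | succ m ih =>
    rw [hh_succ hq hj, map_add, T_cc_succ q hk, T_X_mul_of_mem (q : K) S hj hkj, ih,
      sw_hh q hk hj, Equiv.swap_apply_right]
    simp

/-- `T_j h_m^j = (m - q|S|) h_(m-1)^j`. -/
theorem T_hh_self {q : ℕ} (hq : 1 ≤ q) {S : Finset ι} {j : ι} (hj : j ∈ S) (m : ℕ) :
    T (q : K) S j (hh K q S j (m + 1))
      = ((m : MvPolynomial ι K) + 1 - q * S.card) * hh K q S j m := by
  have hsum : ∀ m, ∑ l ∈ S.erase j, sw j l (hh K q S j m)
      = ∑ l ∈ S, hh K q S l m - hh K q S j m := by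
    intro m
    rw [← Finset.add_sum_erase S _ hj, add_sub_cancel_left]
    refine Finset.sum_congr rfl fun l hl => ?_
    rw [sw_hh q hj (Finset.mem_of_mem_erase hl), Equiv.swap_apply_left]
  induction m with
  | zero =>
    rw [hh_succ hq hj, map_add, T_cc_succ q hj, T_X_self_mul, hsum]
    have h1 := euler_cc (K := K) hq S 0
    rw [hh_zero, T_one]
    simp only [hh_zero, cc_zero, Nat.cast_zero, map_natCast] at h1 ⊢
    linear_combination -h1
  | succ m ih =>
    rw [hh_succ hq hj, map_add, T_cc_succ q hj, T_X_self_mul, hsum, ih]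
    have h1 := euler_cc (K := K) hq S (m + 1)
    have h2 := hh_succ (K := K) hq hj m
    simp only [map_natCast] at h1 ⊢
    push_cast at h1 ⊢
    linear_combination -h1 + (-(m : MvPolynomial ι K) - 1 + q * S.card) * h2

/-! ### The family `vv` -/

/-- Power sums. -/
noncomputable def ps (K : Type*) [Field K] {ι : Type*} (S : Finset ι) (k : ℕ) :
    MvPolynomial ι K := ∑ l ∈ S, X l ^ k

/-- `Σ_{r < m} h_r P_{m-r} / (m-r)`. -/
noncomputable def vv (K : Type*) [Field K] {ι : Type*} [DecidableEq ι] (q : ℕ) (S : Finset ι)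
    (j : ι) (m : ℕ) : MvPolynomial ι K :=
  ∑ r ∈ Finset.range m, C (((m - r : ℕ) : K)⁻¹) * (ps K S (m - r) * hh K q S j r)

theorem sw_ps {S : Finset ι} {a b : ι} (ha : a ∈ S) (hb : b ∈ S) (k : ℕ) :
    sw a b (ps K S k) = ps K S k := by
  unfold ps
  rw [map_sum]
  refine Finset.sum_nbij' (Equiv.swap a b) (Equiv.swap a b) ?_ ?_ ?_ ?_ ?_
  · intro l hl
    rw [← map_swap_eq ha hb, Finset.mem_map_equiv, Equiv.symm_swap, Equiv.swap_apply_self]
    exact hl
  · intro l hl
    rw [← map_swap_eq ha hb, Finset.mem_map_equiv, Equiv.symm_swap, Equiv.swap_apply_self]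
    exact hl
  · intro l _; simp
  · intro l _; simp
  · intro l _; rw [map_pow, sw_X]

omit [DecidableEq ι] in
theorem pderiv_ps {S : Finset ι} {i : ι} (hi : i ∈ S) (k : ℕ) :
    pderiv i (ps K S (k + 1)) = ((k : MvPolynomial ι K) + 1) * X i ^ k := by
  unfold ps
  rw [map_sum, Finset.sum_eq_single_of_mem i hi]
  · rw [Derivation.leibniz_pow, pderiv_X_self]
    simp
  · intro l _ hl
    rw [Derivation.leibniz_pow, pderiv_X_of_ne hl]
    simp

omit [DecidableEq ι] in
/-- Geometric sum against a multiple of `1 - t x_k`. -/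
theorem sum_pow_mul_coeff (k : ι) (Q : Polynomial (MvPolynomial ι K)) (M : ℕ) :
    ∑ r ∈ Finset.range (M + 1), X k ^ (M - r) * (lfac K k * Q).coeff r = Q.coeff M := by
  induction M with
  | zero => rw [Finset.sum_range_one, Nat.sub_self, pow_zero, one_mul, coeff_zero_lfac_mul]
  | succ M ih =>
    rw [Finset.sum_range_succ]
    have h1 : ∑ r ∈ Finset.range (M + 1), X k ^ (M + 1 - r) * (lfac K k * Q).coeff r
        = X k * ∑ r ∈ Finset.range (M + 1), X k ^ (M - r) * (lfac K k * Q).coeff r := by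
      rw [Finset.mul_sum]
      refine Finset.sum_congr rfl fun r hr => ?_
      rw [Finset.mem_range] at hr
      have : M + 1 - r = (M - r) + 1 := by omega
      rw [this, pow_succ]; ring
    rw [h1, ih, coeff_succ_lfac_mul]
    simp

theorem sum_pow_mul_hh {q : ℕ} (hq : 1 ≤ q) {S : Finset ι} {k j : ι} (hk : k ∈ S) (hj : j ∈ S)
    (hkj : k ≠ j) {M : ℕ} (hM : q * S.card ≤ M + 1) :
    ∑ r ∈ Finset.range (M + 1), X k ^ (M - r) * hh K q S j r = 0 := by
  have hk' : k ∈ S.erase j := Finset.mem_erase.2 ⟨hkj, hk⟩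
  have h1 : HH K q S j = lfac K k * (lfac K k ^ (q - 1) * (lfac K j ^ (q - 1)
      * PP K q ((S.erase j).erase k))) := by
    have h2 : PP K q (S.erase j) = lfac K k ^ q * PP K q ((S.erase j).erase k) :=
      (Finset.mul_prod_erase _ (fun l => lfac K l ^ q) hk').symm
    unfold HH
    rw [h2]
    have h3 : lfac K k ^ q = lfac K k * lfac K k ^ (q - 1) := by
      rw [← pow_succ', Nat.sub_add_cancel hq]
    rw [h3]; ring
  unfold hh
  rw [h1, sum_pow_mul_coeff]
  apply Polynomial.coeff_eq_zero_of_natDegree_lt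
  have hd : ∀ l : ι, (lfac K l ^ (q - 1)).natDegree ≤ q - 1 := by
    intro l
    refine Polynomial.natDegree_pow_le.trans ?_
    have := natDegree_lfac (K := K) l
    nlinarith
  have h4 := natDegree_PP (K := K) q ((S.erase j).erase k)
  have h5 := Polynomial.natDegree_mul_le (p := lfac K j ^ (q - 1))
    (q := PP K q ((S.erase j).erase k))
  have h6 := Polynomial.natDegree_mul_le (p := lfac K k ^ (q - 1))
    (q := lfac K j ^ (q - 1) * PP K q ((S.erase j).erase k))
  have h7 := hd j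
  have h8 := hd k
  rw [Finset.card_erase_of_mem hk', Finset.card_erase_of_mem hj] at h4
  have h9 : 1 ≤ (S.erase j).card := Finset.card_pos.2 ⟨k, hk'⟩
  rw [Finset.card_erase_of_mem hj] at h9
  have h10 : q * (S.card - 1 - 1) + 2 * q = q * S.card := by
    have : S.card = (S.card - 1 - 1) + 2 := by omega
    conv_rhs => rw [this]
    ring
  omega

theorem T_C_mul (q : K) (S : Finset ι) (i : ι) (a : K) (f : MvPolynomial ι K) :
    T q S i (C a * f) = C a * T q S i f := by
  rw [← smul_eq_C_mul, map_smul, smul_eq_C_mul]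

section charzero

variable [CharZero K]

theorem T_vv_aux (q : ℕ) {S : Finset ι} {i : ι} (hi : i ∈ S) (j : ι) (M : ℕ) :
    T (q : K) S i (vv K q S j (M + 1))
      = ∑ r ∈ Finset.range (M + 1), X i ^ (M - r) * hh K q S j r
        + ∑ r ∈ Finset.range (M + 1), C (((M + 1 - r : ℕ) : K)⁻¹)
          * (ps K S (M + 1 - r) * T (q : K) S i (hh K q S j r)) := by
  unfold vv
  rw [map_sum, ← Finset.sum_add_distrib]
  refine Finset.sum_congr rfl fun r hr => ?_
  rw [Finset.mem_range] at hr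
  rw [T_C_mul, T_symm_mul (q : K) (fun l hl => sw_ps hi hl _)]
  have h1 : M + 1 - r = (M - r) + 1 := by omega
  rw [h1, pderiv_ps hi]
  have h2 : C ((((M - r) + 1 : ℕ) : K)⁻¹) * (((M - r : ℕ) : MvPolynomial ι K) + 1) = 1 := by
    have h3 : (((M - r : ℕ) : MvPolynomial ι K) + 1) = C (((M - r) + 1 : ℕ) : K) := by
      push_cast
      rw [map_add, map_natCast, map_one]
    rw [h3, ← C_mul, inv_mul_cancel₀, C_1]
    exact Nat.cast_ne_zero.2 (Nat.succ_ne_zero _)
  linear_combination (X i ^ (M - r) * hh K q S j r) * h2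

/-- `T_k v_m = 0` for `k ≠ j`, `m ≥ q|S|`. -/
theorem T_vv_of_ne {q : ℕ} (hq : 1 ≤ q) {S : Finset ι} {k j : ι} (hk : k ∈ S) (hj : j ∈ S)
    (hkj : k ≠ j) {m : ℕ} (hm : q * S.card ≤ m) : T (q : K) S k (vv K q S j m) = 0 := by
  obtain ⟨M, rfl⟩ : ∃ M, m = M + 1 := by
    have : 1 ≤ S.card := Finset.card_pos.2 ⟨j, hj⟩
    have : 1 ≤ q * S.card := Nat.mul_pos hq this
    exact ⟨m - 1, by omega⟩
  rw [T_vv_aux q hk, sum_pow_mul_hh hq hk hj hkj hm, zero_add]
  refine Finset.sum_eq_zero fun r _ => ?_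
  rw [T_hh_of_ne hq hk hj hkj, mul_zero, mul_zero]

/-- `T_j v_m = (m - q|S|) v_(m-1) + |S| h_(m-1)` for `m ≥ q|S|`. -/
theorem T_vv_self {q : ℕ} (hq : 1 ≤ q) {S : Finset ι} {j : ι} (hj : j ∈ S) {M : ℕ}
    (hM : q * S.card ≤ M + 1) :
    T (q : K) S j (vv K q S j (M + 1))
      = ((M : MvPolynomial ι K) + 1 - q * S.card) * vv K q S j M + S.card * hh K q S j M := by
  rw [T_vv_aux q hj, Finset.sum_range_succ' (fun r => C (((M + 1 - r : ℕ) : K)⁻¹)
          * (ps K S (M + 1 - r) * T (q : K) S j (hh K q S j r)))]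
  rw [hh_zero, T_one, mul_zero, mul_zero, add_zero]
  have h1 : ∀ s ∈ Finset.range M, C (((M + 1 - (s + 1) : ℕ) : K)⁻¹)
          * (ps K S (M + 1 - (s + 1)) * T (q : K) S j (hh K q S j (s + 1)))
        = ((M : MvPolynomial ι K) + 1 - (q : MvPolynomial ι K) * (S.card : MvPolynomial ι K))
          * (C (((M - s : ℕ) : K)⁻¹) * (ps K S (M - s) * hh K q S j s))
          - ps K S (M - s) * hh K q S j s := by
    intro s hs
    rw [Finset.mem_range] at hs
    have e1 : M + 1 - (s + 1) = M - s := by omega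
    rw [e1, T_hh_self hq hj]
    have e2 : C (((M - s : ℕ) : K)⁻¹) * ((M : MvPolynomial ι K) - (s : MvPolynomial ι K))
        = 1 := by
      have e3 : (M : MvPolynomial ι K) - (s : MvPolynomial ι K) = C ((M - s : ℕ) : K) := by
        rw [Nat.cast_sub hs.le, map_sub, map_natCast, map_natCast]
      rw [e3, ← C_mul, inv_mul_cancel₀, C_1]
      exact Nat.cast_ne_zero.2 (by omega)
    linear_combination (- (ps K S (M - s) * hh K q S j s)) * e2
  rw [Finset.sum_congr rfl h1, Finset.sum_sub_distrib, ← Finset.mul_sum]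
  have h2 : ∑ s ∈ Finset.range M, ps K S (M - s) * hh K q S j s
      = ∑ k ∈ S, (∑ s ∈ Finset.range (M + 1), X k ^ (M - s) * hh K q S j s - hh K q S j M) := by
    unfold ps
    simp_rw [Finset.sum_mul]
    rw [Finset.sum_comm]
    refine Finset.sum_congr rfl fun k _ => ?_
    rw [Finset.sum_range_succ, Nat.sub_self, pow_zero, one_mul, add_sub_cancel_right]
  have h3 : ∑ k ∈ S, (∑ s ∈ Finset.range (M + 1), X k ^ (M - s) * hh K q S j s)
      = ∑ s ∈ Finset.range (M + 1), X j ^ (M - s) * hh K q S j s := by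
    refine Finset.sum_eq_single_of_mem j hj fun k hk hkj => ?_
    exact sum_pow_mul_hh hq hk hj hkj hM
  rw [h2, Finset.sum_sub_distrib, h3, Finset.sum_const, nsmul_eq_mul]
  unfold vv
  ring

end charzero

/-! ### Constant terms and restriction -/

omit [DecidableEq ι] in
theorem map_constantCoeff_lfac (l : ι) :
    Polynomial.map (constantCoeff : MvPolynomial ι K →+* K) (lfac K l) = 1 := by
  unfold lfac
  simp

theorem constantCoeff_hh_succ (q : ℕ) (S : Finset ι) (j : ι) (m : ℕ) :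
    constantCoeff (hh K q S j (m + 1)) = 0 := by
  unfold hh HH PP
  rw [← Polynomial.coeff_map, Polynomial.map_mul, Polynomial.map_pow, map_constantCoeff_lfac,
    Polynomial.map_prod]
  have : ∏ l ∈ S.erase j, Polynomial.map (constantCoeff : MvPolynomial ι K →+* K) (lfac K l ^ q)
      = 1 := by
    refine Finset.prod_eq_one fun l _ => ?_
    rw [Polynomial.map_pow, map_constantCoeff_lfac, one_pow]
  rw [this, one_pow, one_mul, Polynomial.coeff_one]
  simp

omit [DecidableEq ι] in
theorem constantCoeff_ps_succ (S : Finset ι) (k : ℕ) :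
    constantCoeff (ps K S (k + 1)) = 0 := by
  unfold ps
  rw [map_sum]
  refine Finset.sum_eq_zero fun l _ => ?_
  rw [map_pow, constantCoeff_X]
  simp

theorem constantCoeff_vv (q : ℕ) (S : Finset ι) (j : ι) (m : ℕ) :
    constantCoeff (vv K q S j m) = 0 := by
  unfold vv
  rw [map_sum]
  refine Finset.sum_eq_zero fun r hr => ?_
  rw [Finset.mem_range] at hr
  obtain ⟨k, hk⟩ : ∃ k, m - r = k + 1 := ⟨m - r - 1, by omega⟩
  rw [map_mul, map_mul, hk, constantCoeff_ps_succ, zero_mul, mul_zero]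

theorem X_dvd_hh_sub (q : ℕ) {S : Finset ι} {z j : ι} (hz : z ∈ S) (hzj : z ≠ j) (m : ℕ) :
    X z ∣ hh K q S j m - hh K q (S.erase z) j m := by
  have h1 : HH K q S j - HH K q (S.erase z) j = (lfac K z ^ q - 1) * HH K q (S.erase z) j := by
    have h2 : PP K q (S.erase j) = lfac K z ^ q * PP K q ((S.erase z).erase j) := by
      rw [Finset.erase_right_comm]
      exact (Finset.mul_prod_erase _ (fun l => lfac K l ^ q)
        (Finset.mem_erase.2 ⟨hzj, hz⟩)).symm
    unfold HH
    rw [h2]; ring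
  have h3 : Polynomial.C (X z : MvPolynomial ι K) ∣ lfac K z ^ q - 1 := by
    have h4 : lfac K z - 1 ∣ lfac K z ^ q - 1 := by
      have := sub_dvd_pow_sub_pow (lfac K z) 1 q
      rwa [one_pow] at this
    refine Dvd.dvd.trans ?_ h4
    unfold lfac
    exact ⟨-Polynomial.X, by ring⟩
  have h5 : Polynomial.C (X z : MvPolynomial ι K) ∣ HH K q S j - HH K q (S.erase z) j := by
    rw [h1]; exact Dvd.dvd.mul_right h3 _
  have h6 := (Polynomial.C_dvd_iff_dvd_coeff _ _).1 h5 m
  rwa [Polynomial.coeff_sub] at h6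

/-- `v_m(S)` restricted to `x_z = 0` is `v_m(S - z)`. -/
theorem X_dvd_vv_sub (q : ℕ) {S : Finset ι} {z j : ι} (hz : z ∈ S) (hzj : z ≠ j) (m : ℕ) :
    X z ∣ vv K q S j m - vv K q (S.erase z) j m := by
  unfold vv
  rw [← Finset.sum_sub_distrib]
  refine Finset.dvd_sum fun r hr => ?_
  rw [Finset.mem_range] at hr
  obtain ⟨k, hk⟩ : ∃ k, m - r = k + 1 := ⟨m - r - 1, by omega⟩
  rw [hk]
  obtain ⟨w, hw⟩ := X_dvd_hh_sub (K := K) q hz hzj r
  have h1 : ps K S (k + 1) = X z ^ (k + 1) + ps K (S.erase z) (k + 1) :=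
    (Finset.add_sum_erase S (fun l => (X l : MvPolynomial ι K) ^ (k + 1)) hz).symm
  refine ⟨C (((k + 1 : ℕ) : K)⁻¹) * (X z ^ k * hh K q S j r + ps K (S.erase z) (k + 1) * w), ?_⟩
  rw [h1]
  linear_combination (C (((k + 1 : ℕ) : K)⁻¹) * ps K (S.erase z) (k + 1)) * hw

end Vale.Agent.P181.H78
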