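import Vale.Agent.P181.H78.Fam

/-!
# Nonsingularity of the pairing

A polynomial in the active variables which is killed by all Dunkl operators is constant.
-/

namespace Vale.Agent.P181.H78

open MvPolynomial Vale.Agent.P181.H602

variable {ι : Type*} [DecidableEq ι] {K : Type*} [Field K]

/-- The polynomial of degree `m` which only sees the pure power `x_j^m`. -/
noncomputable def pf (K : Type*) [Field K] {ι : Type*} [DecidableEq ι] (q : ℕ) (S : Finset ι)
    (j : ι) (m : ℕ) : MvPolynomial ι K :=
  if m < q * S.card then hh K q S j m else vv K q S j m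

/-- The constants `T_j pf_(m+1) = gm m * pf_m`. -/
noncomputable def gm (K : Type*) [Field K] {ι : Type*} (q : ℕ) (S : Finset ι) (m : ℕ) : K :=
  if m + 1 = q * S.card then (S.card : K) else (m : K) + 1 - q * S.card

/-- Products of the constants `gm`. -/
noncomputable def Gm (K : Type*) [Field K] {ι : Type*} (q : ℕ) (S : Finset ι) (m : ℕ) : K :=
  ∏ i ∈ Finset.range m, gm K q S i

theorem pf_zero {q : ℕ} (hq : 1 ≤ q) {S : Finset ι} {j : ι} (hj : j ∈ S) :
    pf K q S j 0 = 1 := by
  have h1 : 1 ≤ S.card := Finset.card_pos.2 ⟨j, hj⟩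
  have h2 : 0 < q * S.card := Nat.mul_pos hq h1
  unfold pf
  rw [if_pos h2, hh_zero]

theorem constantCoeff_pf_succ (q : ℕ) (S : Finset ι) (j : ι) (m : ℕ) :
    constantCoeff (pf K q S j (m + 1)) = 0 := by
  unfold pf
  split_ifs
  · exact constantCoeff_hh_succ q S j m
  · exact constantCoeff_vv q S j (m + 1)

variable [CharZero K]

omit [DecidableEq ι] in
theorem gm_ne_zero (q : ℕ) {S : Finset ι} {j : ι} (hj : j ∈ S) (m : ℕ) : gm K q S m ≠ 0 := by
  have h1 : 1 ≤ S.card := Finset.card_pos.2 ⟨j, hj⟩
  unfold gm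
  split_ifs with h
  · exact Nat.cast_ne_zero.2 (by omega)
  · intro h0
    apply h
    have h2 : ((m + 1 : ℕ) : K) = ((q * S.card : ℕ) : K) := by
      push_cast
      linear_combination h0
    exact Nat.cast_injective h2

omit [DecidableEq ι] in
theorem Gm_ne_zero (q : ℕ) {S : Finset ι} {j : ι} (hj : j ∈ S) (m : ℕ) : Gm K q S m ≠ 0 :=
  Finset.prod_ne_zero_iff.2 fun i _ => gm_ne_zero q hj i

theorem T_pf_of_ne {q : ℕ} (hq : 1 ≤ q) {S : Finset ι} {k j : ι} (hk : k ∈ S) (hj : j ∈ S)
    (hkj : k ≠ j) (m : ℕ) : T (q : K) S k (pf K q S j m) = 0 := by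
  unfold pf
  split_ifs with h
  · exact T_hh_of_ne hq hk hj hkj m
  · exact T_vv_of_ne hq hk hj hkj (not_lt.1 h)

theorem T_pf_self {q : ℕ} (hq : 1 ≤ q) {S : Finset ι} {j : ι} (hj : j ∈ S) (m : ℕ) :
    T (q : K) S j (pf K q S j (m + 1)) = C (gm K q S m) * pf K q S j m := by
  unfold pf gm
  rcases lt_trichotomy (m + 1) (q * S.card) with h | h | h
  · rw [if_pos h, if_neg (show ¬ m + 1 = q * S.card by omega),
      if_pos (show m < q * S.card by omega), T_hh_self hq hj]
    simp
  · rw [if_neg (show ¬ m + 1 < q * S.card by omega), if_pos h,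
      if_pos (show m < q * S.card by omega), T_vv_self hq hj h.ge]
    have h2 : (m : MvPolynomial ι K) + 1 = q * S.card := by exact_mod_cast h
    rw [h2, sub_self, zero_mul, zero_add, map_natCast]
  · rw [if_neg (show ¬ m + 1 < q * S.card by omega), if_neg (show ¬ m + 1 = q * S.card by omega),
      if_neg (show ¬ m < q * S.card by omega), T_vv_self hq hj h.le,
      hh_eq_zero hq hj (by omega)]
    simp

theorem iterate_pf {q : ℕ} (hq : 1 ≤ q) {S : Finset ι} {j : ι} (hj : j ∈ S) (m r : ℕ) :
    constantCoeff ((T (q : K) S j)^[r] (pf K q S j m)) = if r = m then Gm K q S m else 0 := by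
  induction m generalizing r with
  | zero =>
    rw [pf_zero hq hj]
    cases r with
    | zero => simp [Gm]
    | succ r =>
      rw [Function.iterate_succ_apply, T_one, if_neg (Nat.succ_ne_zero r)]
      have : (T (q : K) S j)^[r] (0 : MvPolynomial ι K) = 0 :=
        Function.iterate_fixed (map_zero _) r
      rw [this, map_zero]
  | succ m ih =>
    cases r with
    | zero =>
      rw [Function.iterate_zero_apply, constantCoeff_pf_succ, if_neg (Nat.succ_ne_zero m).symm]
    | succ r =>
      rw [Function.iterate_succ_apply, T_pf_self hq hj]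
      have h1 : ∀ (c : K) (f : MvPolynomial ι K),
          (T (q : K) S j)^[r] (C c * f) = C c * (T (q : K) S j)^[r] f := by
        intro c
        induction r with
        | zero => intro f; rfl
        | succ r ihr =>
          intro f
          rw [Function.iterate_succ_apply, T_C_mul, ihr, Function.iterate_succ_apply]
      rw [h1, map_mul, constantCoeff_C, ih]
      by_cases hr : r = m
      · subst hr
        rw [if_pos rfl, if_pos rfl]
        unfold Gm
        rw [Finset.prod_range_succ, mul_comm]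
      · rw [if_neg hr, if_neg (fun h => hr (Nat.succ_injective h)), mul_zero]

/-- The pairing with `pf_m` is, up to a nonzero constant, the coefficient of `x_j^m`. -/
theorem Bp_pf {q : ℕ} (hq : 1 ≤ q) {S : Finset ι} {j : ι} (hj : j ∈ S) (m : ℕ)
    (f : MvPolynomial ι K) :
    Bp (q : K) S f (pf K q S j m) = coeff (Finsupp.single j m) f * Gm K q S m :=
  Bp_eq_of_pure (q : K) S hj (pf K q S j m) (fun _ hk hkj => T_pf_of_ne hq hk hj hkj m)
    (fun r => iterate_pf hq hj m r) f

theorem exists_Bp_vv {q : ℕ} (hq : 1 ≤ q) {S : Finset ι} {j : ι} (hj : j ∈ S) {m : ℕ}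
    (hm : q * S.card ≤ m) :
    ∃ c : K, c ≠ 0 ∧ ∀ f : MvPolynomial ι K,
      Bp (q : K) S f (vv K q S j m) = coeff (Finsupp.single j m) f * c := by
  refine ⟨Gm K q S m, Gm_ne_zero q hj m, fun f => ?_⟩
  have := Bp_pf (K := K) hq hj m f
  unfold pf at this
  rwa [if_neg (not_lt.2 hm)] at this

theorem exists_Bp_hh {q : ℕ} (hq : 1 ≤ q) {S : Finset ι} {j : ι} (hj : j ∈ S) {m : ℕ}
    (hm : m < q * S.card) :
    ∃ c : K, c ≠ 0 ∧ ∀ f : MvPolynomial ι K,
      Bp (q : K) S f (hh K q S j m) = coeff (Finsupp.single j m) f * c := by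
  refine ⟨Gm K q S m, Gm_ne_zero q hj m, fun f => ?_⟩
  have := Bp_pf (K := K) hq hj m f
  unfold pf at this
  rwa [if_pos hm] at this

/-- A polynomial killed by all Dunkl operators has no pure powers. -/
theorem coeff_single_eq_zero {q : ℕ} (hq : 1 ≤ q) {S : Finset ι} {g : MvPolynomial ι K}
    (hg : ∀ i ∈ S, T (q : K) S i g = 0) {j : ι} (hj : j ∈ S) {m : ℕ} (hm : m ≠ 0) :
    coeff (Finsupp.single j m) g = 0 := by
  have h1 := Bp_pf (K := K) hq hj m g
  obtain ⟨m, rfl⟩ := Nat.exists_eq_succ_of_ne_zero hm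
  rw [Bp_comm, Bp_eq_zero_of_T (q : K) S (constantCoeff_pf_succ q S j m) hg] at h1
  exact (mul_eq_zero.1 h1.symm).resolve_right (Gm_ne_zero q hj _)

omit [CharZero K] in
theorem cf_mem_supported {S : Finset ι} {g : MvPolynomial ι K}
    (hg : g ∈ supported K (S : Set ι)) (j : ι) (E : ℕ) :
    cf j E g ∈ supported K ((S.erase j : Finset ι) : Set ι) := by
  rw [mem_supported] at hg ⊢
  intro i hi
  rw [Finset.mem_coe, mem_vars_iff_mem_support] at hi
  obtain ⟨m, hm, him⟩ := hi
  rw [mem_support_cf] at hm
  rw [Finsupp.mem_support_iff] at him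
  have hij : i ≠ j := fun h => him (h ▸ hm.1)
  rw [Finset.coe_erase]
  refine ⟨hg ?_, hij⟩
  rw [Finset.mem_coe, mem_vars_iff_mem_support]
  refine ⟨_, hm.2, ?_⟩
  rw [Finsupp.mem_support_iff, Finsupp.add_apply]
  omega

omit [CharZero K] in
theorem cf_degreeOf_ne_zero {g : MvPolynomial ι K} {j : ι} (h : degreeOf j g ≠ 0) :
    cf j (degreeOf j g) g ≠ 0 := by
  intro h0
  have hlt : degreeOf j g < degreeOf j g := by
    have hpos : 0 < degreeOf j g := Nat.pos_of_ne_zero h
    conv_lhs => rfl
    rw [degreeOf_lt_iff hpos]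
    intro m hm
    refine lt_of_le_of_ne (monomial_le_degreeOf j hm) ?_
    intro hEq
    have h3 : m.erase j ∈ (cf j (degreeOf j g) g).support := by
      rw [mem_support_cf]
      refine ⟨Finsupp.erase_same, ?_⟩
      rw [← hEq, Finsupp.erase_add_single]; exact hm
    rw [h0] at h3
    simp at h3
  exact lt_irrefl _ hlt

/-- (b4) NONSINGULARITY: a polynomial in the active variables killed by all Dunkl operators is
constant. -/
theorem nonsing {q : ℕ} (hq : 1 ≤ q) (S : Finset ι) (g : MvPolynomial ι K)
    (hs : g ∈ supported K (S : Set ι)) (hg : ∀ i ∈ S, T (q : K) S i g = 0) :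
    g = C (constantCoeff g) := by
  induction hn : S.card generalizing S g with
  | zero =>
    rw [Finset.card_eq_zero] at hn
    subst hn
    rw [mem_supported, Finset.coe_empty, Set.subset_empty_iff, Finset.coe_eq_empty,
      vars_eq_empty_iff_eq_C] at hs
    exact hs
  | succ n ih =>
    by_cases hall : ∀ i ∈ S, degreeOf i g = 0
    · have hv : g.vars = ∅ := by
        rw [Finset.eq_empty_iff_forall_notMem]
        intro i hi
        have hiS : i ∈ S := by
          rw [mem_supported] at hs
          exact Finset.mem_coe.1 (hs (Finset.mem_coe.2 hi))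
        have h0 := hall i hiS
        rw [mem_vars_iff_mem_support] at hi
        obtain ⟨m, hm, him⟩ := hi
        have := monomial_le_degreeOf i hm
        rw [h0] at this
        rw [Finsupp.mem_support_iff] at him
        omega
      rw [vars_eq_empty_iff_eq_C] at hv
      exact hv
    · exfalso
      push Not at hall
      obtain ⟨i₀, hi₀, hi₀'⟩ := hall
      obtain ⟨j, hj, hmax⟩ := Finset.exists_max_image S (fun i => degreeOf i g) ⟨i₀, hi₀⟩
      have hE : degreeOf j g ≠ 0 := by
        have := hmax i₀ hi₀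
        omega
      have h1 : cf j (degreeOf j g) g = C (constantCoeff (cf j (degreeOf j g) g)) := by
        apply ih (S.erase j) _ (cf_mem_supported hs j _)
        · intro i hi
          rw [← cf_T_of_ne (q : K) S (Finset.ne_of_mem_erase hi)
            (hmax i (Finset.mem_of_mem_erase hi)) le_rfl, hg i (Finset.mem_of_mem_erase hi),
            map_zero]
        · rw [Finset.card_erase_of_mem hj, hn]; rfl
      have h2 : constantCoeff (cf j (degreeOf j g) g) = 0 := by
        rw [constantCoeff_eq, coeff_cf]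
        simp only [Finsupp.coe_zero, Pi.zero_apply, if_true, zero_add]
        exact coeff_single_eq_zero hq hg hj hE
      rw [h2, C_0] at h1
      exact cf_degreeOf_ne_zero hE h1

end Vale.Agent.P181.H78
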