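import Mathlib

/-!
The numeric lemma of the binary kernel theorem (route M): the recursion of the dimension count
gives `m ^ (m - 1)` back. The identity behind it is
`∑ j, C(n, j) j ^ j (X - j) ^ (n - j) = n ∑ j, C(n - 1, j) j ^ j (X - j) ^ (n - 1 - j) + X ^ n`.
-/

open Finset Polynomial

namespace Vale.Agent.P181.H78

/-- the polynomial `∑ j, C(n, j) j ^ j (X - j) ^ (n - j)` -/
noncomputable def Fp (n : ℕ) : ℚ[X] :=
  ∑ j ∈ range (n + 1), C ((n.choose j : ℚ) * (j : ℚ) ^ j) * (X - C (j : ℚ)) ^ (n - j)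

lemma deriv_Fp (n : ℕ) : derivative (Fp (n + 1)) = C ((n : ℚ) + 1) * Fp n := by
  unfold Fp
  rw [derivative_sum, sum_range_succ, mul_sum]
  have hlast : derivative (C (((n + 1).choose (n + 1) : ℚ) * ((n + 1 : ℕ) : ℚ) ^ (n + 1)) *
      (X - C ((n + 1 : ℕ) : ℚ)) ^ (n + 1 - (n + 1))) = 0 := by
    rw [Nat.sub_self, pow_zero, mul_one, derivative_C]
  rw [hlast, add_zero]
  refine sum_congr rfl fun j hj => ?_
  have hj' : j ≤ n := by
    have := mem_range.1 hj
    omega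
  have e1 : n + 1 - j = (n - j) + 1 := by omega
  have e2 : ((n.choose j : ℚ)) * ((n : ℚ) + 1) = ((n + 1).choose j : ℚ) * ((n - j : ℕ) + 1 : ℚ) := by
    have h := Nat.choose_mul_succ_eq n j
    rw [e1] at h
    exact_mod_cast h
  rw [e1, derivative_C_mul, derivative_X_sub_C_pow]
  have e3 : C (((n + 1).choose j : ℚ) * (j : ℚ) ^ j) * C (((n - j + 1 : ℕ) : ℚ)) =
      C ((n : ℚ) + 1) * C ((n.choose j : ℚ) * (j : ℚ) ^ j) := by
    rw [← C_mul, ← C_mul]
    congr 1
    push_cast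
    linear_combination (-(j : ℚ) ^ j) * e2
  rw [← mul_assoc, e3, mul_assoc, Nat.add_sub_cancel]

lemma eval_Fp (n : ℕ) : (Fp n).eval 0 = n.factorial := by
  unfold Fp
  rw [eval_finsetSum]
  have h := fwdDiff_iter_eq_factorial (R := ℚ) (n := n)
  have h2 := congrFun h (0 : ℚ)
  rw [fwdDiff_iter_eq_sum_shift] at h2
  rw [show ((n.factorial : ℚ)) = ((n.factorial : ℚ → ℚ) 0) from rfl, ← h2]
  refine sum_congr rfl fun j hj => ?_
  have hj' : j ≤ n := by
    have := mem_range.1 hj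
    omega
  simp only [eval_mul, eval_C, eval_pow, eval_sub, eval_X, zero_sub, zero_add, nsmul_eq_mul,
    mul_one, zsmul_eq_mul]
  push_cast
  rw [neg_pow]
  have : (j : ℚ) ^ n = (j : ℚ) ^ j * (j : ℚ) ^ (n - j) := by
    rw [← pow_add]
    congr 1
    omega
  rw [this]
  ring

/-- **The identity of Abel type.** -/
theorem Fp_succ (n : ℕ) : Fp (n + 1) = C ((n : ℚ) + 1) * Fp n + X ^ (n + 1) := by
  induction n with
  | zero =>
    unfold Fp
    simp [sum_range_succ, add_comm]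
  | succ n ih =>
    have hd : derivative (Fp (n + 2) - (C (((n + 1 : ℕ) : ℚ) + 1) * Fp (n + 1) + X ^ (n + 2))) = 0 := by
      rw [derivative_sub, derivative_add, derivative_C_mul, deriv_Fp, deriv_Fp, derivative_X_pow]
      have e := ih
      have e' : C (((n + 1 : ℕ) : ℚ) + 1) * Fp (n + 1) =
          C (((n + 1 : ℕ) : ℚ) + 1) * (C ((n : ℚ) + 1) * Fp n) +
          C (((n + 1 : ℕ) : ℚ) + 1) * X ^ (n + 1) := by
        rw [← mul_add, ← e]
      rw [e']
      have e2 : (C (((n + 2 : ℕ) : ℚ)) : ℚ[X]) = C (((n + 1 : ℕ) : ℚ) + 1) := by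
        congr 1
        push_cast
        ring
      rw [e2]
      simp only [show n + 2 - 1 = n + 1 from rfl]
      ring
    have hc := derivative_eq_zero.1 hd
    obtain ⟨c, hc⟩ := natDegree_eq_zero.1 hc
    have h0 := congrArg (eval 0) hc
    rw [eval_C, eval_sub, eval_add, eval_mul, eval_C, eval_Fp, eval_Fp, eval_pow, eval_X,
      zero_pow (by omega), add_zero, Nat.factorial_succ (n + 1)] at h0
    have hc0 : c = 0 := by
      rw [h0]
      push_cast
      ring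
    rw [hc0, C_0] at hc
    exact (sub_eq_zero.1 hc.symm)


/-- `C(k, j) x ^ (k - j)` -/
def Tt (x : ℚ) (j k : ℕ) : ℚ := (k.choose j : ℚ) * x ^ (k - j)

/-- the binomial transform -/
def Lb (f : ℕ → ℚ) (k : ℕ) : ℚ := ∑ i ∈ range (k + 1), (k.choose i : ℚ) * f i

lemma Lb_Tt (x : ℚ) (j k : ℕ) : Lb (Tt x j) k = Tt (x + 1) j k := by
  unfold Lb Tt
  rcases lt_or_ge k j with h | h
  · rw [Nat.choose_eq_zero_of_lt h, Nat.cast_zero, zero_mul]
    refine sum_eq_zero fun i hi => ?_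
    have := mem_range.1 hi
    rw [Nat.choose_eq_zero_of_lt (show i < j by omega), Nat.cast_zero, zero_mul, mul_zero]
  · obtain ⟨l, rfl⟩ := Nat.exists_eq_add_of_le h
    rw [show j + l + 1 = j + (l + 1) by ring, sum_range_add]
    have h0 : ∑ i ∈ range j, ((j + l).choose i : ℚ) * ((i.choose j : ℚ) * x ^ (i - j)) = 0 := by
      refine sum_eq_zero fun i hi => ?_
      have := mem_range.1 hi
      rw [Nat.choose_eq_zero_of_lt (show i < j by omega), Nat.cast_zero, zero_mul, mul_zero]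
    rw [h0, zero_add, Nat.add_sub_cancel_left, add_pow, mul_sum]
    refine sum_congr rfl fun i hi => ?_
    have hi' : i ≤ l := by
      have := mem_range.1 hi
      omega
    have e := Nat.choose_mul (n := j + l) (k := j + i) (s := j) (by omega)
    rw [Nat.add_sub_cancel_left, Nat.add_sub_cancel_left] at e
    have e' : ((j + l).choose (j + i) : ℚ) * ((j + i).choose j : ℚ) =
        ((j + l).choose j : ℚ) * (l.choose i : ℚ) := by exact_mod_cast e
    rw [Nat.add_sub_cancel_left, one_pow]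
    linear_combination (x ^ i) * e'

lemma Lb_Tt' (x : ℚ) {j : ℕ} (hj : 1 ≤ j) (k : ℕ) :
    Lb (fun i => Tt x j (i + 1) / ((i : ℚ) + 1)) k = Tt (x + 1) j (k + 1) / ((k : ℚ) + 1) := by
  have hk : ((k : ℚ) + 1) ≠ 0 := by positivity
  rw [eq_div_iff hk, ← Lb_Tt]
  unfold Lb
  rw [sum_range_succ' _ (k + 1), sum_mul]
  have h0 : Tt x j 0 = 0 := by
    unfold Tt
    rw [Nat.choose_eq_zero_of_lt (show 0 < j by omega), Nat.cast_zero, zero_mul]
  rw [h0, mul_zero, add_zero]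
  refine sum_congr rfl fun i _ => ?_
  have hi : ((i : ℚ) + 1) ≠ 0 := by positivity
  have e : ((k : ℚ) + 1) * (k.choose i : ℚ) = ((k + 1).choose (i + 1) : ℚ) * ((i : ℚ) + 1) := by
    have := Nat.add_one_mul_choose_eq k i
    exact_mod_cast this
  field_simp
  linear_combination (Tt x j (i + 1)) * e

/-- the closed form -/
def Sc (m k : ℕ) : ℚ := (m : ℚ) ^ k + ∑ j ∈ range m, ((j : ℚ) + 1) ^ (j + 1) *
  (Tt ((m : ℚ) - (j + 1)) (j + 1) k - Tt ((m : ℚ) - (j + 1)) (j + 1) (k + 1) / ((k : ℚ) + 1))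

lemma Lb_add (f g : ℕ → ℚ) (k : ℕ) : Lb (fun i => f i + g i) k = Lb f k + Lb g k := by
  unfold Lb
  rw [← sum_add_distrib]
  exact sum_congr rfl fun _ _ => by ring

lemma Lb_sub (f g : ℕ → ℚ) (k : ℕ) : Lb (fun i => f i - g i) k = Lb f k - Lb g k := by
  unfold Lb
  rw [← sum_sub_distrib]
  exact sum_congr rfl fun _ _ => by ring

lemma Lb_mul (c : ℚ) (f : ℕ → ℚ) (k : ℕ) : Lb (fun i => c * f i) k = c * Lb f k := by
  unfold Lb
  rw [mul_sum]
  exact sum_congr rfl fun _ _ => by ring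

lemma Lb_sum (m : ℕ) (f : ℕ → ℕ → ℚ) (k : ℕ) :
    Lb (fun i => ∑ j ∈ range m, f j i) k = ∑ j ∈ range m, Lb (f j) k := by
  unfold Lb
  rw [sum_comm]
  exact sum_congr rfl fun _ _ => by rw [mul_sum]

lemma Lb_pow (x : ℚ) (k : ℕ) : Lb (fun i => x ^ i) k = (x + 1) ^ k := by
  have h := Lb_Tt x 0 k
  unfold Tt at h
  simpa using h

/-- one step of the recursion -/
lemma Sc_step (m k : ℕ) : Sc (m + 1) k = Lb (Sc m) k + ((m : ℚ) + 1) ^ (m + 1) *
    (Tt 0 (m + 1) k - Tt 0 (m + 1) (k + 1) / ((k : ℚ) + 1)) := by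
  have h : Lb (Sc m) k = ((m : ℚ) + 1) ^ k + ∑ j ∈ range m, ((j : ℚ) + 1) ^ (j + 1) *
      (Tt ((m : ℚ) - (j + 1) + 1) (j + 1) k -
        Tt ((m : ℚ) - (j + 1) + 1) (j + 1) (k + 1) / ((k : ℚ) + 1)) := by
    have e : Lb (Sc m) k = Lb (fun i => (m : ℚ) ^ i + ∑ j ∈ range m, ((j : ℚ) + 1) ^ (j + 1) *
      (Tt ((m : ℚ) - (j + 1)) (j + 1) i -
        Tt ((m : ℚ) - (j + 1)) (j + 1) (i + 1) / ((i : ℚ) + 1))) k := rfl
    rw [e, Lb_add, Lb_pow, Lb_sum]
    congr 1
    refine sum_congr rfl fun j _ => ?_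
    rw [Lb_mul, Lb_sub, Lb_Tt, Lb_Tt' _ (by omega)]
  rw [h]
  unfold Sc
  rw [sum_range_succ]
  push_cast
  have e1 : (m : ℚ) + 1 - ((m : ℚ) + 1) = 0 := by ring
  rw [e1, ← add_assoc]
  congr 2
  refine sum_congr rfl fun j _ => ?_
  rw [show (m : ℚ) + 1 - ((j : ℚ) + 1) = (m : ℚ) - (j + 1) + 1 by ring]

/-- the value on the diagonal -/
lemma Sc_diag (m : ℕ) : Sc m m = ((m : ℚ) + 1) ^ m := by
  have hF := congrArg (eval (m : ℚ)) (Fp_succ m)
  rw [eval_add, eval_mul, eval_C, eval_pow, eval_X] at hF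
  have h1 : (Fp m).eval (m : ℚ) = (m : ℚ) ^ m + ∑ j ∈ range m, ((j : ℚ) + 1) ^ (j + 1) *
      Tt ((m : ℚ) - (j + 1)) (j + 1) m := by
    unfold Fp Tt
    rw [eval_finsetSum, sum_range_succ', add_comm]
    congr 1
    · simp
    · refine sum_congr rfl fun j _ => ?_
      simp only [eval_mul, eval_C, eval_pow, eval_sub, eval_X]
      push_cast
      ring
  have h2 : (Fp (m + 1)).eval (m : ℚ) = (m : ℚ) ^ (m + 1) + ∑ j ∈ range m,
      ((j : ℚ) + 1) ^ (j + 1) * Tt ((m : ℚ) - (j + 1)) (j + 1) (m + 1) +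
      ((m : ℚ) + 1) ^ (m + 1) := by
    unfold Fp Tt
    rw [eval_finsetSum, sum_range_succ, sum_range_succ']
    congr 1
    · rw [add_comm]
      congr 1
      · simp
      · refine sum_congr rfl fun j _ => ?_
        simp only [eval_mul, eval_C, eval_pow, eval_sub, eval_X]
        push_cast
        ring
    · simp
  have hm : ((m : ℚ) + 1) ≠ 0 := by positivity
  have h3 : ((m : ℚ) + 1) * Sc m m = ((m : ℚ) + 1) * ((m : ℚ) + 1) ^ m := by
    unfold Sc
    have e : ∑ j ∈ range m, ((j : ℚ) + 1) ^ (j + 1) * (Tt ((m : ℚ) - (j + 1)) (j + 1) m -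
        Tt ((m : ℚ) - (j + 1)) (j + 1) (m + 1) / ((m : ℚ) + 1)) =
        ∑ j ∈ range m, ((j : ℚ) + 1) ^ (j + 1) * Tt ((m : ℚ) - (j + 1)) (j + 1) m -
        (∑ j ∈ range m, ((j : ℚ) + 1) ^ (j + 1) * Tt ((m : ℚ) - (j + 1)) (j + 1) (m + 1)) /
          ((m : ℚ) + 1) := by
      rw [sum_div, ← sum_sub_distrib]
      exact sum_congr rfl fun _ _ => by ring
    rw [e]
    field_simp
    rw [h1, h2] at hF
    linear_combination -hF
  exact mul_left_cancel₀ hm h3

lemma Tt_zero (j k : ℕ) : Tt 0 j k = if k = j then 1 else 0 := by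
  unfold Tt
  split_ifs with h
  · subst h
    simp
  · rcases lt_or_gt_of_ne h with h | h
    · rw [Nat.choose_eq_zero_of_lt h, Nat.cast_zero, zero_mul]
    · rw [zero_pow (by omega), mul_zero]

section main

variable {s a : ℕ → ℕ → ℕ}

/-- the binomial transform of the closed form is the recursion -/
lemma Lb_eq (h4 : ∀ m n, 1 ≤ m → m ≤ n →
      a m n = ∑ r ∈ range (n - m + 1), (n - 1).choose r * s m (n - r)) {m : ℕ}
    (ih0 : ∀ k, k < m → Sc m k = 0) (ih1 : ∀ k, m ≤ k → Sc m k = s (m + 1) (k + 1)) :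
    (∀ k, k < m → Lb (Sc m) k = 0) ∧ ∀ k, m ≤ k → Lb (Sc m) k = a (m + 1) (k + 1) := by
  constructor
  · intro k hk
    unfold Lb
    refine sum_eq_zero fun i hi => ?_
    have := mem_range.1 hi
    rw [ih0 i (by omega), mul_zero]
  · intro k hk
    rw [h4 (m + 1) (k + 1) (by omega) (by omega)]
    unfold Lb
    rw [← sum_range_reflect, show k + 1 - (m + 1) + 1 = k + 1 - m by omega]
    have hsub : range (k + 1 - m) ⊆ range (k + 1) := range_subset_range.2 (by omega)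
    push_cast
    rw [← sum_subset hsub]
    · refine sum_congr rfl fun r hr => ?_
      have hr' := mem_range.1 hr
      rw [ih1 (k - r) (by omega), Nat.choose_symm (by omega),
        show k - r + 1 = k + 1 - r by omega]
    · intro r hr hr2
      have h1 := mem_range.1 hr
      have h2 : ¬ r < k + 1 - m := fun h => hr2 (mem_range.2 h)
      rw [ih0 (k - r) (by omega), mul_zero]

theorem Sc_eq (h1 : ∀ m, 1 ≤ m → s m m = m ^ (m - 1)) (h2 : ∀ n, 2 ≤ n → s 1 n = 0)
    (h3 : ∀ m n, 1 ≤ m → m + 1 < n → s (m + 1) n = a m n)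
    (h4 : ∀ m n, 1 ≤ m → m ≤ n →
      a m n = ∑ r ∈ range (n - m + 1), (n - 1).choose r * s m (n - r)) (m : ℕ) :
    (∀ k, k < m → Sc m k = 0) ∧ ∀ k, m ≤ k → Sc m k = s (m + 1) (k + 1) := by
  induction m with
  | zero =>
    refine ⟨fun k hk => absurd hk (by omega), fun k _ => ?_⟩
    have e : Sc 0 k = (0 : ℚ) ^ k := by
      unfold Sc
      simp
    rw [e]
    rcases Nat.eq_zero_or_pos k with rfl | hk
    · rw [pow_zero, h1 1 le_rfl]
      simp
    · rw [zero_pow (by omega), zero_add, h2 (k + 1) (by omega), Nat.cast_zero]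
  | succ m ih =>
    obtain ⟨L0, L1⟩ := Lb_eq h4 ih.1 ih.2
    refine ⟨fun k hk => ?_, fun k hk => ?_⟩
    · rw [Sc_step, Tt_zero, Tt_zero, if_neg (by omega)]
      rcases Nat.lt_or_ge k m with h | h
      · rw [L0 k h, if_neg (by omega)]
        ring
      · obtain rfl : k = m := by omega
        rw [L1 k le_rfl, if_pos rfl, h4 (k + 1) (k + 1) (by omega) le_rfl]
        simp only [Nat.sub_self, zero_add, sum_range_one, Nat.choose_zero_right, one_mul,
          Nat.sub_zero]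
        rw [h1 (k + 1) (by omega), Nat.add_sub_cancel]
        have : ((k : ℚ) + 1) ≠ 0 := by positivity
        push_cast
        field_simp
        ring
    · rcases Nat.eq_or_lt_of_le hk with h | h
      · subst h
        rw [Sc_diag, h1 (m + 1 + 1) (by omega), Nat.add_sub_cancel]
        push_cast
        ring
      · rw [Sc_step, Tt_zero, Tt_zero, if_neg (by omega), if_neg (by omega), L1 k (by omega),
          h3 (m + 1) (k + 1) (by omega) (by omega)]
        ring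

/-- **The numeric lemma.** -/
theorem num (h1 : ∀ m, 1 ≤ m → s m m = m ^ (m - 1)) (h2 : ∀ n, 2 ≤ n → s 1 n = 0)
    (h3 : ∀ m n, 1 ≤ m → m + 1 < n → s (m + 1) n = a m n)
    (h4 : ∀ m n, 1 ≤ m → m ≤ n →
      a m n = ∑ r ∈ range (n - m + 1), (n - 1).choose r * s m (n - r)) {m : ℕ} (hm : 1 ≤ m) :
    a m (m + 1) + m ^ m = (m + 1) ^ m := by
  obtain ⟨m, rfl⟩ : ∃ k, m = k + 1 := ⟨m - 1, by omega⟩
  obtain ⟨i0, i1⟩ := Sc_eq h1 h2 h3 h4 m
  obtain ⟨-, L1⟩ := Lb_eq h4 i0 i1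
  have h := Sc_step m (m + 1)
  rw [L1 (m + 1) (by omega), Tt_zero, Tt_zero, if_pos rfl, if_neg (by omega), Sc_diag] at h
  have e : ((a (m + 1) (m + 1 + 1) + (m + 1) ^ (m + 1) : ℕ) : ℚ) =
      (((m + 1 + 1) ^ (m + 1) : ℕ) : ℚ) := by
    push_cast
    push_cast at h
    linear_combination -h
  exact_mod_cast e

end main

end Vale.Agent.P181.H78
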